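import Vale.Agent.Lib.P007.Final

set_option autoImplicit false

namespace Vale.Agent.Results.P007.CompositeNo

open MeasureTheory Filter Topology NumberField Module Vale.Agent.P007

/-- A necessary condition for equidistribution: only finitely many of the orders contain a root of
a given integer polynomial without integer roots. -/
theorem necessary (n : ℕ) (hn : 0 < n) (K : ℕ → Type) [∀ i, Field (K i)]
    [∀ i, NumberField (K i)] (σ : ∀ i, Fin n ≃ (K i →+* ℝ)) (O : ∀ i, Subring (K i))
    (μ : ℕ → Measure (X n)) (hμ : ∀ i, IsPacketMeasure (σ i) (O i) (μ i))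
    (m : Measure (X n)) (hm : IsInvProb m)
    (hconv : ∀ f : X n → ℝ, Continuous f → HasCompactSupport f →
      Tendsto (fun i => ∫ x, f x ∂(μ i)) atTop (𝓝 (∫ x, f x ∂m)))
    (P : Polynomial ℤ) (hP : P ≠ 0) (hroot : ∀ z : ℤ, P.eval z ≠ 0) :
    {i | ∃ a ∈ O i, Polynomial.aeval a P = 0}.Finite := by
  obtain ⟨f, hfc, hfs, -, hf0, hfm⟩ := exists_test hn hP hroot
  have h1 := hconv f hfc hfs
  have h2 : ∀ᶠ i in atTop, 0 < ∫ x, f x ∂(μ i) := h1.eventually_const_lt (hfm m hm)
  rw [eventually_atTop] at h2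
  obtain ⟨N, hN⟩ := h2
  refine (Set.finite_lt_nat N).subset ?_
  rintro i ⟨a, haO, haP⟩
  by_contra hi
  have h3 := hN i (not_lt.mp hi)
  rw [integral_eq_zero haO haP (hμ i) hf0] at h3
  exact lt_irrefl _ h3

theorem result :
    (∀ (n : ℕ), 0 < n → ∀ (K : ℕ → Type) [∀ i, Field (K i)] [∀ i, NumberField (K i)]
      (σ : ∀ i, Fin n ≃ (K i →+* ℝ)) (O : ∀ i, Subring (K i)) (μ : ℕ → Measure (X n)),
      (∀ i, finrank ℚ (K i) = n) → (∀ i, IsOrderOf (O i)) →
      (∀ i, IsPacketMeasure (σ i) (O i) (μ i)) →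
      ∀ m : Measure (X n), IsInvProb m →
      (∀ f : X n → ℝ, Continuous f → HasCompactSupport f →
        Tendsto (fun i => ∫ x, f x ∂(μ i)) atTop (𝓝 (∫ x, f x ∂m))) →
      ∀ P : Polynomial ℤ, P ≠ 0 → (∀ z : ℤ, P.eval z ≠ 0) →
        {i | ∃ a ∈ O i, Polynomial.aeval a P = 0}.Finite) ∧
    (∀ n : ℕ, 4 ≤ n → ¬ n.Prime →
      ∃ f : X n → ℝ, Continuous f ∧ HasCompactSupport f ∧ (∀ x, 0 ≤ f x) ∧
        (∀ m : Measure (X n), IsInvProb m → 0 < ∫ x, f x ∂m) ∧
        (∃ (K : ℕ → IntermediateField ℚ ℂ) (_ : ∀ i, NumberField (K i)),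
          (∀ i, IsTotallyReal (K i)) ∧ (∀ i, finrank ℚ (K i) = n) ∧
          Tendsto (fun i => absDisc (maxOrder (K i))) atTop atTop ∧
          ∀ i, Nonempty (Fin n ≃ (K i →+* ℝ)) ∧ ∀ σ : Fin n ≃ (K i →+* ℝ),
            (packet σ (maxOrder (K i))).Finite ∧
            (∀ S ∈ packet σ (maxOrder (K i)), IsCompact S) ∧
            (∃ μ : Measure (X n), IsPacketMeasure σ (maxOrder (K i)) μ) ∧
            ∀ μ : Measure (X n), IsPacketMeasure σ (maxOrder (K i)) μ →
              IsProbabilityMeasure μ ∧ ∫ x, f x ∂μ = 0) ∧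
        (∃ (K : IntermediateField ℚ ℂ) (_ : NumberField K) (O : ℕ → Subring K),
          IsTotallyReal K ∧ finrank ℚ K = n ∧ Nonempty (Fin n ≃ (K →+* ℝ)) ∧
          (∀ i, IsOrderOf (O i)) ∧ Tendsto (fun i => absDisc (O i)) atTop atTop ∧
          ∀ i, ∀ σ : Fin n ≃ (K →+* ℝ),
            (packet σ (O i)).Finite ∧
            (∀ S ∈ packet σ (O i), IsCompact S) ∧
            (∃ μ : Measure (X n), IsPacketMeasure σ (O i) μ) ∧
            ∀ μ : Measure (X n), IsPacketMeasure σ (O i) μ →
              IsProbabilityMeasure μ ∧ ∫ x, f x ∂μ = 0)) := by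
  constructor
  · intro n hn K _ _ σ O μ _ _ hμ m hm hconv P hP hroot
    exact necessary n hn K σ O μ hμ m hm hconv P hP hroot
  · intro n h4 hcomp
    -- factor n = e * d
    set e := n.minFac with he
    have hep : e.Prime := Nat.minFac_prime (by omega)
    obtain ⟨d, hd⟩ : e ∣ n := Nat.minFac_dvd n
    have hd1 : 1 < d := by
      by_contra hcon
      interval_cases d
      · omega
      · rw [mul_one] at hd
        exact hcomp (hd ▸ hep)
    -- the field F of degree d
    obtain ⟨p, hp, -, hpd⟩ := Nat.exists_prime_gt_modEq_one (k := 2 * d) 2 (by omega)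
    have : NeZero p := ⟨hp.ne_zero⟩
    obtain ⟨M, hM⟩ := exists_cyclo p
    obtain ⟨F, -, hFfin, -, hFd, hFreal⟩ := exists_real_subfield d p (by omega) hp hpd M
    obtain ⟨a, haF, hai, P, hP, hroot, haP⟩ := exists_nonrational F (by rw [hFd]; exact hd1)
    obtain ⟨f, hfc, hfs, hfnn, hf0, hfm⟩ := exists_test (n := n) (by omega) hP hroot
    -- infinitely many fields
    have hinf := infinite_fields e hep F hFreal
    rw [hFd, ← hd] at hinf
    let L : ℕ → IntermediateField ℚ ℂ := fun i => (Set.Infinite.natEmbedding _ hinf i : IntermediateField ℚ ℂ)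
    have hLinj : Function.Injective L := fun i j hij =>
      (Set.Infinite.natEmbedding _ hinf).injective (Subtype.ext hij)
    have hLmem : ∀ i, F ≤ L i ∧ FiniteDimensional ℚ (L i) ∧ finrank ℚ (L i) = n ∧
        IsTotallyReal (L i) := fun i => (Set.Infinite.natEmbedding _ hinf i).2
    have hLNF : ∀ i, NumberField (L i) := fun i =>
      { to_charZero := inferInstance
        to_finiteDimensional := (hLmem i).2.1 }
    have haL : ∀ i, ∃ b : L i, IsIntegral ℤ b ∧ Polynomial.aeval b P = 0 := by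
      intro i
      refine ⟨⟨a, (hLmem i).1 haF⟩, ?_, ?_⟩
      · rw [← isIntegral_algebraMap_iff (algebraMap (L i) ℂ).injective]
        exact hai
      · apply (algebraMap (L i) ℂ).injective
        rw [map_zero, ← Polynomial.aeval_algebraMap_apply]
        exact haP
    refine ⟨f, hfc, hfs, hfnn, hfm, ⟨L, hLNF, fun i => (hLmem i).2.2.2,
      fun i => (hLmem i).2.2.1, tendsto_discr L hLNF hLinj, ?_⟩, ?_⟩
    · intro i
      refine ⟨nonempty_sigma (hLmem i).2.2.2 (hLmem i).2.2.1, fun σ => ?_⟩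
      obtain ⟨b, hbi, hbP⟩ := haL i
      have hn := (hLmem i).2.2.1
      refine ⟨packet_finite σ isOrderOf_maxOrder,
        fun S hS => (packet_orbit σ hn isOrderOf_maxOrder hS).1,
        exists_isPacketMeasure σ hn isOrderOf_maxOrder, fun μ hμ =>
        ⟨isProbabilityMeasure_of_isPacketMeasure σ hn isOrderOf_maxOrder hμ, ?_⟩⟩
      exact integral_eq_zero (a := b) hbi hbP hμ hf0
    · -- the fixed field L 0
      have hn := (hLmem 0).2.2.1
      have hLN := hLNF 0
      let E : IntermediateField ℚ (L 0) := IntermediateField.restrict (hLmem 0).1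
      have hE : E ≠ ⊤ := by
        intro h
        have h1 : finrank ℚ E = finrank ℚ (L 0) := by
          rw [h]; exact IntermediateField.finrank_top'
        have h2 : finrank ℚ E = finrank ℚ F :=
          (IntermediateField.restrictAlgEquiv (hLmem 0).1).toLinearEquiv.finrank_eq.symm
        rw [h2, hFd, hn, hd] at h1
        have := hep.one_lt
        nlinarith
      let b : L 0 := ⟨a, (hLmem 0).1 haF⟩
      have hbE : b ∈ E := (IntermediateField.mem_restrict (hLmem 0).1 b).mpr haF
      have hbi : IsIntegral ℤ b := by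
        rw [← isIntegral_algebraMap_iff (algebraMap (L 0) ℂ).injective]
        exact hai
      have hbP : Polynomial.aeval b P = 0 := by
        apply (algebraMap (L 0) ℂ).injective
        rw [map_zero, ← Polynomial.aeval_algebraMap_apply]
        exact haP
      have hO : ∀ i, IsOrderOf (relOrder E (i + 1)) := fun i =>
        isOrderOf_relOrder E (i + 1) (Nat.succ_pos i)
      refine ⟨L 0, hLN, fun i => relOrder E (i + 1), (hLmem 0).2.2.2, hn,
        nonempty_sigma (hLmem 0).2.2.2 hn, hO, tendsto_relOrder E hE, ?_⟩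
      intro i σ
      refine ⟨packet_finite σ (hO i), fun S hS => (packet_orbit σ hn (hO i) hS).1,
        exists_isPacketMeasure σ hn (hO i), fun μ hμ =>
        ⟨isProbabilityMeasure_of_isPacketMeasure σ hn (hO i) hμ, ?_⟩⟩
      exact integral_eq_zero (mem_relOrder E (i + 1) hbE hbi) hbP hμ hf0

end Vale.Agent.Results.P007.CompositeNo
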