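import Vale.Agent.Lib.P007.Lattices

set_option autoImplicit false

namespace Vale.Agent.Results.P007.LatticeNo

open MeasureTheory Filter Topology NumberField Module
open Vale.Agent.P007 (IsOrderOf maxOrder absDisc)
open Vale.Agent.P007.Lattices

theorem result :
    -- Q1 fails in every composite degree.
    (∀ n : ℕ, 4 ≤ n → ¬ n.Prime → ∀ m : Measure (Lat n), IsHaarProb m → ¬ Q1 n m) ∧
    -- It fails for maximal orders: the packets of a sequence of maximal orders avoid a fixed open set.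
    (∀ n : ℕ, 4 ≤ n → ¬ n.Prime →
      ∃ (K : ℕ → Type) (_ : ∀ i, Field (K i)) (_ : ∀ i, NumberField (K i)) (U : Set (Lat n)),
        (∀ i, IsTotallyReal (K i)) ∧ (∀ i, finrank ℚ (K i) = n) ∧
        Tendsto (fun i => (discr (K i)).natAbs) atTop atTop ∧
        IsOpen U ∧ U.Nonempty ∧ (∀ m : Measure (Lat n), IsHaarProb m → 0 < m U) ∧
        ∀ i, Nonempty (Fin n ≃ (K i →+* ℝ)) ∧ ∀ σ : Fin n ≃ (K i →+* ℝ),
          (∀ S ∈ pack σ (maxOrder (K i)), IsCompact S ∧ 0 < vol S ∧ ∀ Λ ∈ S, Λ ∉ U) ∧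
          (∃ μ : Measure (Lat n), IsPackMeasure σ (maxOrder (K i)) μ) ∧
          ∀ μ : Measure (Lat n), IsPackMeasure σ (maxOrder (K i)) μ →
            IsProbabilityMeasure μ ∧ μ U = 0) ∧
    -- It fails inside every totally real field with a nontrivial proper subfield.
    (∀ (n : ℕ) (K : Type) [Field K] [NumberField K], IsTotallyReal K → finrank ℚ K = n →
      ∀ E : IntermediateField ℚ K, E ≠ ⊥ → E ≠ ⊤ →
      ∃ (O : ℕ → Subring K) (U : Set (Lat n)),
        (∀ i, IsOrderOf (O i)) ∧ Tendsto (fun i => absDisc (O i)) atTop atTop ∧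
        IsOpen U ∧ U.Nonempty ∧ (∀ m : Measure (Lat n), IsHaarProb m → 0 < m U) ∧
        Nonempty (Fin n ≃ (K →+* ℝ)) ∧ ∀ i, ∀ σ : Fin n ≃ (K →+* ℝ),
          (∀ S ∈ pack σ (O i), IsCompact S ∧ 0 < vol S ∧ ∀ Λ ∈ S, Λ ∉ U) ∧
          (∃ μ : Measure (Lat n), IsPackMeasure σ (O i) μ) ∧
          ∀ μ : Measure (Lat n), IsPackMeasure σ (O i) μ → IsProbabilityMeasure μ ∧ μ U = 0) ∧
    -- Necessary condition in every degree: an order of a number field other than `ℚ` has copies in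
    -- only finitely many of the orders of an equidistributing sequence.
    (∀ n : ℕ, 0 < n → ∀ (K : ℕ → Type) [∀ i, Field (K i)] [∀ i, NumberField (K i)]
      (O : ∀ i, Subring (K i)) (σ : ∀ i, Fin n ≃ (K i →+* ℝ)) (μ : ℕ → Measure (Lat n))
      (m : Measure (Lat n)), (∀ i, IsOrderOf (O i)) →
      (∀ i, IsPackMeasure (σ i) (O i) (μ i)) → IsHaarProb m →
      (∀ f : Lat n → ℝ, Continuous f → HasCompactSupport f →
        Tendsto (fun i => ∫ Λ, f Λ ∂(μ i)) atTop (𝓝 (∫ Λ, f Λ ∂m))) →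
      ∀ (F : Type) [Field F] [NumberField F] (R : Subring F), 1 < finrank ℚ F → IsOrderOf R →
        {i | ∃ φ : F →+* K i, ∀ a ∈ R, φ a ∈ O i}.Finite) := by
  refine ⟨?_, ?_, ?_, ?_⟩
  · intro n h4 hcomp m hm hQ
    obtain ⟨L, hL, P, hreal, hdeg, hdisc, hP, hroot, ha⟩ := exists_fields h4 hcomp
    have hσ : ∀ i, Nonempty (Fin n ≃ (L i →+* ℝ)) := fun i =>
      Vale.Agent.P007.nonempty_sigma (hreal i) (hdeg i)
    let σ : ∀ i, Fin n ≃ (L i →+* ℝ) := fun i => (hσ i).some
    have hex : ∀ i, ∃ μ : Measure (Lat n), IsPackMeasure (σ i) (maxOrder (L i)) μ := fun i =>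
      exists_isPackMeasure (σ i) (hdeg i) Vale.Agent.P007.isOrderOf_maxOrder
    choose μ hμ using hex
    have h1 := hQ (fun i => L i) (fun i => maxOrder (L i)) σ μ hreal hdeg
      (fun i => Vale.Agent.P007.isOrderOf_maxOrder) hdisc hμ
    have h2 := necessary (by omega) (fun i => L i) (fun i => maxOrder (L i)) σ μ m hμ hm h1.1 P
      hP hroot
    have h3 : {i | ∃ a ∈ maxOrder (L i), Polynomial.aeval a P = 0} = Set.univ :=
      Set.eq_univ_of_forall ha
    rw [h3] at h2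
    exact Set.infinite_univ h2
  · intro n h4 hcomp
    obtain ⟨L, hL, P, hreal, hdeg, hdisc, hP, hroot, ha⟩ := exists_fields h4 hcomp
    refine ⟨fun i => L i, inferInstance, hL, hole n P, hreal, hdeg, ?_, isOpen_hole hP,
      nonempty_hole (by omega) hroot, fun m hm => pos_hole (by omega) hP hroot hm, fun i =>
      ⟨Vale.Agent.P007.nonempty_sigma (hreal i) (hdeg i), fun σ => ?_⟩⟩
    · simpa only [Vale.Agent.P007.absDisc_maxOrder] using hdisc
    · obtain ⟨a, haO, haP⟩ := ha i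
      exact avoid (hdeg i) Vale.Agent.P007.isOrderOf_maxOrder haO haP σ
  · intro n K _ _ hreal hd E hE hE'
    obtain ⟨a, haE, hai, P, hP, hroot, haP⟩ := exists_poly E hE
    have hO : ∀ i, IsOrderOf (Vale.Agent.P007.relOrder E (i + 1)) := fun i =>
      Vale.Agent.P007.isOrderOf_relOrder E (i + 1) (Nat.succ_pos i)
    have hn : 0 < n := hd ▸ finrank_pos
    exact ⟨fun i => Vale.Agent.P007.relOrder E (i + 1), hole n P, hO,
      Vale.Agent.P007.tendsto_relOrder E hE', isOpen_hole hP,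
      nonempty_hole hn hroot, fun m hm => pos_hole hn hP hroot hm, Vale.Agent.P007.nonempty_sigma hreal hd,
      fun i σ => avoid hd (hO i) (Vale.Agent.P007.mem_relOrder E (i + 1) haE hai) haP σ⟩
  · intro n hn K _ _ O σ μ m _ hμ hm hconv F _ _ R hF hR
    obtain ⟨a, haR, P, hP, hroot, haP⟩ := exists_poly_order hF hR
    refine (necessary hn K O σ μ m hμ hm hconv P hP hroot).subset ?_
    rintro i ⟨φ, hφ⟩
    refine ⟨φ a, hφ a haR, ?_⟩
    have h1 := Polynomial.aeval_algHom_apply φ.toIntAlgHom a P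
    have h2 : φ.toIntAlgHom a = φ a := rfl
    rw [h2, haP, map_zero] at h1
    exact h1

end Vale.Agent.Results.P007.LatticeNo
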